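import Vale.Agent.P141.H505.Node
import Vale.Agent.P141.H389.PlaneV
import Vale.Agent.P141.H585.PairCh
import Vale.Agent.P141.H442.Lip
import Vale.Agent.P141.PL.H588.En

/-!
# P141, line (A): the plane energy of a capped stack family

`TV_stack`: for a family of Gram matrices `W k a n m` (middle scale `k`, outer scale `a`) whose
outer and middle steps satisfy the node inequalities of all levels, the energy `TV` of the capped
family `phs s (W k a n m)` is at most `1300 s ((J + 1) H + Qo + Qm)`.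
-/

namespace Vale.Agent.P141.H336

open Finset Matrix Vale.Agent.P075 Vale.Agent.P141.PL Vale.Agent.P141.H103 Vale.Agent.P141.H389
  Vale.Agent.P141.H505 Vale.Agent.P141.H585.PairCh

noncomputable section

/-! ### Matrices -/

section mat

variable {n : Type*} [Fintype n] [DecidableEq n] {X X₀ X₁ : Matrix n n ℝ}

/-- the cap is Lipschitz along a left multiplication -/
theorem phs_lip (hX : X.PosSemidef) {s : ℝ} (hs : 0 < s) (M : Matrix n n ℝ) :
    H389.sq (phs s (mv M X) - phs s X) ≤ s * (M * X * Mᵀ).trace := by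
  obtain ⟨B, hB, rfl⟩ := exists_sq hX
  have hBt := psd_isSymm hB
  have hr : 0 < √s := Real.sqrt_pos.2 hs
  have hrs : √s ^ 2 = s := Real.sq_sqrt hs.le
  have h := H442.phi_lip_level hr B ((1 + M) * B)
  rw [hrs] at h
  have e1 : ((1 + M) * B) * ((1 + M) * B)ᵀ = mv M (B * B) := by
    rw [mv, transpose_mul, hBt]
    simp only [Matrix.mul_assoc]
  have e2 : B * Bᵀ = B * B := by rw [hBt]
  have e3 : (1 + M) * B - B = M * B := by rw [Matrix.add_mul, Matrix.one_mul, add_sub_cancel_left]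
  rw [e1, e2, e3, H442.hs_eq_trace, H442.hs_eq_trace] at h
  have e4 : M * B * (M * B)ᵀ = M * (B * B) * Mᵀ := by
    rw [transpose_mul, hBt]
    simp only [Matrix.mul_assoc]
  rw [e4] at h
  have hp : (s • phi (s⁻¹ • mv M (B * B)) - s • phi (s⁻¹ • (B * B)))ᵀ
      = s • phi (s⁻¹ • mv M (B * B)) - s • phi (s⁻¹ • (B * B)) := by
    have k1 : (s⁻¹ • mv M (B * B)).PosSemidef :=
      (mv_psd hX M).smul (inv_nonneg.2 hs.le)
    have k2 : (s⁻¹ • (B * B)).PosSemidef := hX.smul (inv_nonneg.2 hs.le)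
    rw [transpose_sub, transpose_smul, transpose_smul, phi_symm k1, phi_symm k2]
  rw [hp] at h
  exact h

/-- distance of the two static halves to the mean -/
theorem phi_halves (h0 : X₀.PosSemidef) (h1 : X₁.PosSemidef) :
    H389.sq (phi X₀ - phi ((1 / 2 : ℝ) • (X₀ + X₁))) + H389.sq (phi X₁ - phi ((1 / 2 : ℝ) • (X₀ + X₁)))
      ≤ 4 * (delt X₀ X₁).trace := by
  have e0 : phi X₀ - phi ((1 / 2 : ℝ) • (X₀ + X₁)) = hdiff X₀ X₁ - delt X₀ X₁ := by
    simp only [delt, hdiff]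
    module
  have e1 : phi X₁ - phi ((1 / 2 : ℝ) • (X₀ + X₁)) = -hdiff X₀ X₁ - delt X₀ X₁ := by
    simp only [delt, hdiff]
    module
  have q1 := R.hdiff_sq_le h0 h1
  have q2 := R.delt_sq_le h0 h1
  rw [e0, e1]
  unfold H389.sq
  have e2 : (hdiff X₀ X₁ - delt X₀ X₁) * (hdiff X₀ X₁ - delt X₀ X₁)
      + (-hdiff X₀ X₁ - delt X₀ X₁) * (-hdiff X₀ X₁ - delt X₀ X₁)
      = (2 : ℝ) • (hdiff X₀ X₁ * hdiff X₀ X₁) + (2 : ℝ) • (delt X₀ X₁ * delt X₀ X₁) := by
    simp only [two_smul]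
    noncomm_ring
  have e3 := congrArg trace e2
  rw [trace_add, trace_add, trace_smul, trace_smul, smul_eq_mul, smul_eq_mul] at e3
  linarith

theorem sq_add_le {A B : Matrix n n ℝ} (hA : Aᵀ = A) (hB : Bᵀ = B) :
    H389.sq (A + B) ≤ 2 * H389.sq A + 2 * H389.sq B := R.trace_sq_add_le hA hB

theorem phs_symm (hX : X.PosSemidef) {s : ℝ} (hs : 0 < s) : (phs s X)ᵀ = phs s X := by
  unfold phs
  rw [transpose_smul, phi_symm (hX.smul (inv_nonneg.2 hs.le))]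

/-- the level distance of the capped family at one outer step -/
theorem phs_step (h0 : X₀.PosSemidef) (h1 : X₁.PosSemidef) {s : ℝ} (hs : 0 < s)
    (M₀ M₁ : Matrix n n ℝ) :
    H389.sq (phs s (mv M₀ X₀) - phs s ((1 / 2 : ℝ) • (X₀ + X₁)))
        + H389.sq (phs s (mv M₁ X₁) - phs s ((1 / 2 : ℝ) • (X₀ + X₁)))
      ≤ 8 * s ^ 2 * (delt (s⁻¹ • X₀) (s⁻¹ • X₁)).trace
        + 2 * s * ((M₀ * X₀ * M₀ᵀ).trace + (M₁ * X₁ * M₁ᵀ).trace) := by
  have hi : 0 ≤ s⁻¹ := inv_nonneg.2 hs.le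
  have hm := half_psd h0 h1
  have l0 := phs_lip h0 hs M₀
  have l1 := phs_lip h1 hs M₁
  have s0 := phs_symm h0 hs
  have s1 := phs_symm h1 hs
  have sm := phs_symm hm hs
  have t0 := phs_symm (mv_psd h0 M₀) hs
  have t1 := phs_symm (mv_psd h1 M₁) hs
  have a0 := sq_add_le (A := phs s (mv M₀ X₀) - phs s X₀)
    (B := phs s X₀ - phs s ((1 / 2 : ℝ) • (X₀ + X₁))) (by rw [transpose_sub, t0, s0])
    (by rw [transpose_sub, s0, sm])
  have a1 := sq_add_le (A := phs s (mv M₁ X₁) - phs s X₁)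
    (B := phs s X₁ - phs s ((1 / 2 : ℝ) • (X₀ + X₁))) (by rw [transpose_sub, t1, s1])
    (by rw [transpose_sub, s1, sm])
  rw [sub_add_sub_cancel] at a0 a1
  have h := phi_halves (h0.smul hi) (h1.smul hi)
  have e : (1 / 2 : ℝ) • (s⁻¹ • X₀ + s⁻¹ • X₁) = s⁻¹ • ((1 / 2 : ℝ) • (X₀ + X₁)) := by
    rw [← smul_add, smul_comm]
  rw [e] at h
  have f0 : ∀ Y : Matrix n n ℝ, H389.sq (phs s Y - phs s ((1 / 2 : ℝ) • (X₀ + X₁)))
      = s ^ 2 * H389.sq (phi (s⁻¹ • Y) - phi (s⁻¹ • ((1 / 2 : ℝ) • (X₀ + X₁)))) := by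
    intro Y
    rw [← sq_smul, smul_sub]
    rfl
  rw [f0 X₀] at a0
  rw [f0 X₁] at a1
  have h2 := mul_le_mul_of_nonneg_left h (sq_nonneg s)
  linarith

/-- the square of the cap -/
theorem sq_phs_le (hX : X.PosSemidef) {s : ℝ} (hs : 0 < s) : H389.sq (phs s X) ≤ s * X.trace := by
  have hi : 0 ≤ s⁻¹ := inv_nonneg.2 hs.le
  have hY := hX.smul hi
  have h1 := trace_mul_le_right (phi_psd hY) (one_sub_phi_psd hY)
  have h2 := (sub_phi_psd hY).trace_nonneg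
  rw [trace_sub, trace_smul, smul_eq_mul] at h2
  rw [Matrix.mul_one] at h1
  unfold phs
  rw [sq_smul]
  unfold H389.sq
  have h3 : (phi (s⁻¹ • X) * phi (s⁻¹ • X)).trace ≤ s⁻¹ * X.trace := by linarith
  have h4 := mul_le_mul_of_nonneg_left h3 (sq_nonneg s)
  refine h4.trans (le_of_eq ?_)
  field_simp

/-- the energy of all levels is at most the trace for every level -/
theorem SG_le (hX : X.PosSemidef) {μ : ℝ} (hμ : 0 < μ) (J : ℕ) :
    SG μ J X ≤ ((J : ℝ) + 1) * X.trace := by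
  unfold SG
  have h : ∀ j ∈ range (J + 1), (μ / 4 ^ j)⁻¹ * GX ((μ / 4 ^ j) • X) ≤ X.trace := by
    intro j _
    have hj : 0 < μ / 4 ^ j := by positivity
    have h1 := H588.GX_le_trace (hX.smul hj.le)
    rw [trace_smul, smul_eq_mul] at h1
    have h2 := mul_le_mul_of_nonneg_left h1 (inv_nonneg.2 hj.le)
    rwa [← mul_assoc, inv_mul_cancel₀ hj.ne', one_mul] at h2
  refine (sum_le_sum h).trans (le_of_eq ?_)
  rw [sum_const, card_range, nsmul_eq_mul]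
  push_cast
  ring

theorem SG_nonneg (hX : X.PosSemidef) {μ : ℝ} (hμ : 0 < μ) (J : ℕ) : 0 ≤ SG μ J X :=
  sum_nonneg fun j _ => mul_nonneg (by positivity)
    (GX_nonneg (hX.smul (by positivity : (0 : ℝ) ≤ μ / 4 ^ j)))

/-- one level of the row defects -/
theorem le_SD (h0 : X₀.PosSemidef) (h1 : X₁.PosSemidef) {μ : ℝ} (hμ : 0 < μ) {J j : ℕ}
    (hj : j ≤ J) :
    (μ / 4 ^ j)⁻¹ * (delt ((μ / 4 ^ j) • X₀) ((μ / 4 ^ j) • X₁)).trace ≤ SD μ J X₀ X₁ := by
  unfold SD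
  refine single_le_sum (f := fun j => (μ / 4 ^ j)⁻¹
    * (delt ((μ / 4 ^ j) • X₀) ((μ / 4 ^ j) • X₁)).trace) (fun i _ => ?_)
    (mem_range.2 (by omega))
  have hi : (0 : ℝ) ≤ μ / 4 ^ i := by positivity
  exact mul_nonneg (inv_nonneg.2 hi) (delt_psd (h0.smul hi) (h1.smul hi)).trace_nonneg

theorem SD_nonneg (h0 : X₀.PosSemidef) (h1 : X₁.PosSemidef) {μ : ℝ} (hμ : 0 < μ) (J : ℕ) :
    0 ≤ SD μ J X₀ X₁ :=
  sum_nonneg fun i _ => by
    have hi : (0 : ℝ) ≤ μ / 4 ^ i := by positivity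
    exact mul_nonneg (inv_nonneg.2 hi) (delt_psd (h0.smul hi) (h1.smul hi)).trace_nonneg

end mat

/-! ### Box sums -/

/-- normalised sum over the boxes of middle scale `k` and outer scale `a` -/
def bsum (N : ℕ) (R S : ℤ) (k a : ℕ) (f : ℤ → ℤ → ℝ) : ℝ :=
  (2 : ℝ) ^ a * 2 ^ k * ∑ m ∈ iv (N - k) S, ∑ n ∈ iv (N - a) R, f n m

theorem bsum_mono {N : ℕ} {R S : ℤ} {k a : ℕ} {f g : ℤ → ℤ → ℝ} (h : ∀ n m, f n m ≤ g n m) :
    bsum N R S k a f ≤ bsum N R S k a g :=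
  mul_le_mul_of_nonneg_left (sum_le_sum fun m _ => sum_le_sum fun n _ => h n m) (by positivity)

theorem bsum_nonneg {N : ℕ} {R S : ℤ} {k a : ℕ} {f : ℤ → ℤ → ℝ} (h : ∀ n m, 0 ≤ f n m) :
    0 ≤ bsum N R S k a f :=
  mul_nonneg (by positivity) (sum_nonneg fun m _ => sum_nonneg fun n _ => h n m)

theorem bsum_add (N : ℕ) (R S : ℤ) (k a : ℕ) (f g : ℤ → ℤ → ℝ) :
    bsum N R S k a (fun n m => f n m + g n m) = bsum N R S k a f + bsum N R S k a g := by
  unfold bsum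
  simp only [sum_add_distrib, mul_add]

theorem bsum_smul (N : ℕ) (R S : ℤ) (k a : ℕ) (c : ℝ) (f : ℤ → ℤ → ℝ) :
    bsum N R S k a (fun n m => c * f n m) = c * bsum N R S k a f := by
  unfold bsum
  simp only [← mul_sum]
  ring

/-- children of the outer cells -/
theorem bsum_outer {N k a : ℕ} (ha : a < N) (R S : ℤ) (f : ℤ → ℤ → ℝ) :
    bsum N R S k (a + 1) (fun n m => (1 / 2) * (f (2 * n) m + f (2 * n + 1) m))
      = bsum N R S k a f := by
  have e : N - a = (N - (a + 1)) + 1 := by omega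
  unfold bsum
  rw [e]
  simp only [H588.sum_iv_succ, ← mul_sum]
  rw [pow_succ]
  ring

/-- children of the middle cells -/
theorem bsum_mid {N k a : ℕ} (hk : k < N) (R S : ℤ) (f : ℤ → ℤ → ℝ) :
    bsum N R S (k + 1) a (fun n m => (1 / 2) * (f n (2 * m) + f n (2 * m + 1)))
      = bsum N R S k a f := by
  have e : N - k = (N - (k + 1)) + 1 := by omega
  unfold bsum
  rw [e, H588.sum_iv_succ]
  simp only [← mul_sum, sum_add_distrib]
  rw [pow_succ]
  ring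

/-! ### Diagonals -/

/-- **The diagonals of a double telescope.** -/
theorem diag {k₀ N : ℕ} {E G G' q p : ℕ → ℕ → ℝ}
    (out : ∀ k a, k₀ ≤ k → k ≤ a → a < N → E k (a + 1) + G k a ≤ E k a + q k a)
    (mid : ∀ k a, k₀ ≤ k → k + 1 ≤ a → a ≤ N → E (k + 1) a + G' k a ≤ E k a + p k a)
    (r : ℕ) : ∀ K, k₀ ≤ K → K + r ≤ N →
      ∑ k ∈ Ico k₀ K, G k (k + r) + ∑ k ∈ Ico k₀ K, G' k (k + 1 + r) + E K (K + r)
        ≤ E k₀ (k₀ + r) + ∑ k ∈ Ico k₀ K, q k (k + r) + ∑ k ∈ Ico k₀ K, p k (k + 1 + r) := by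
  intro K hK
  induction K, hK using Nat.le_induction with
  | base => intro _; simp
  | succ K hK ih =>
    intro hN
    have h0 := ih (by omega)
    have h1 := out K (K + r) hK (by omega) (by omega)
    have h2 := mid K (K + 1 + r) hK (by omega) (by omega)
    rw [sum_Ico_succ_top hK, sum_Ico_succ_top hK, sum_Ico_succ_top hK, sum_Ico_succ_top hK]
    rw [show K + r + 1 = K + 1 + r by ring] at h1
    linarith

theorem geo (n : ℕ) : ∑ r ∈ range n, (3 / 4 : ℝ) ^ r ≤ 4 := by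
  have h : ∀ n : ℕ, ∑ r ∈ range n, (3 / 4 : ℝ) ^ r = 4 - 4 * (3 / 4) ^ n := by
    intro n
    induction n with
    | zero => simp
    | succ n ih => rw [sum_range_succ, ih, pow_succ]; ring
  rw [h]
  have : (0 : ℝ) ≤ (3 / 4) ^ n := by positivity
  linarith

theorem geo' {k₀ N : ℕ} (h : k₀ ≤ N) : ∑ k ∈ Ico k₀ N, (3 / 4 : ℝ) ^ (N - k) ≤ 4 := by
  have key : ∀ K, k₀ ≤ K → K ≤ N →
      ∑ k ∈ Ico k₀ K, (3 / 4 : ℝ) ^ (N - k) ≤ 3 * (3 / 4) ^ (N - K) := by
    intro K hK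
    induction K, hK using Nat.le_induction with
    | base => intro _; simp only [Ico_self, sum_empty]; positivity
    | succ K hK ih =>
      intro hN
      have h0 := ih (by omega)
      rw [sum_Ico_succ_top hK]
      have e : N - K = (N - (K + 1)) + 1 := by omega
      rw [e, pow_succ] at h0 ⊢
      linarith
  have := key N h le_rfl
  rw [Nat.sub_self, pow_zero] at this
  linarith

/-- weighted sum over all diagonals -/
theorem diag_sum {k₀ N : ℕ} {f : ℕ → ℕ → ℝ} {B : ℝ}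
    (h : ∀ r, ∑ k ∈ Ico k₀ (N - r), f k r ≤ B) (hB : 0 ≤ B) :
    ∑ k ∈ Ico k₀ N, ∑ r ∈ range (N - k), (3 / 4 : ℝ) ^ r * f k r ≤ 4 * B := by
  rw [Finset.sum_comm' (t' := range (N - k₀)) (s' := fun r => Ico k₀ (N - r)) (by
    intro k r
    simp only [mem_Ico, mem_range]
    omega)]
  simp only [← mul_sum]
  calc ∑ r ∈ range (N - k₀), (3 / 4 : ℝ) ^ r * ∑ k ∈ Ico k₀ (N - r), f k r
      ≤ ∑ r ∈ range (N - k₀), (3 / 4 : ℝ) ^ r * B :=
        sum_le_sum fun r _ => mul_le_mul_of_nonneg_left (h r) (by positivity)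
    _ = (∑ r ∈ range (N - k₀), (3 / 4 : ℝ) ^ r) * B := (sum_mul ..).symm
    _ ≤ 4 * B := mul_le_mul_of_nonneg_right (geo _) hB

/-! ### The stack family -/

/-- The data of a stack family: Gram matrices `W k a n m` (middle scale `k`, outer scale `a`,
outer cell `n`, middle cell `m`), static halves `X₀`, `X₁` of the outer step and multipliers
`M₀`, `M₁`; node inequalities of all levels with errors `q` (outer) and `p` (middle), middle gain
`γ`; total energy `H`, total errors `Qo`, `Qm` on every diagonal. -/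
structure Stk (k₀ N : ℕ) (R S : ℤ) {ι : ℕ → Type*} [∀ k, Fintype (ι k)]
    [∀ k, DecidableEq (ι k)] (μ : ℝ) (J : ℕ)
    (W X₀ X₁ M₀ M₁ : ∀ k, ℕ → ℤ → ℤ → Matrix (ι k) (ι k) ℝ)
    (q p γ : ℕ → ℕ → ℤ → ℤ → ℝ) (H Qo Qm : ℝ) : Prop where
  hkN : k₀ ≤ N
  hμ : 0 < μ
  psd : ∀ k a n m, (W k a n m).PosSemidef
  psd0 : ∀ k a n m, (X₀ k a n m).PosSemidef
  psd1 : ∀ k a n m, (X₁ k a n m).PosSemidef
  nγ : ∀ k a n m, 0 ≤ γ k a n m
  par : ∀ k a n m, k₀ ≤ k → k ≤ a → a < N →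
    W k (a + 1) n m = (1 / 2 : ℝ) • (X₀ k a n m + X₁ k a n m)
  ch0 : ∀ k a n m, k₀ ≤ k → k ≤ a → a < N → W k a (2 * n) m = mv (M₀ k a n m) (X₀ k a n m)
  ch1 : ∀ k a n m, k₀ ≤ k → k ≤ a → a < N → W k a (2 * n + 1) m = mv (M₁ k a n m) (X₁ k a n m)
  out : ∀ k a n m, k₀ ≤ k → k ≤ a → a < N →
    SG μ J (W k (a + 1) n m) + (1 / 4) * SD μ J (X₀ k a n m) (X₁ k a n m)
      ≤ (1 / 2) * (SG μ J (W k a (2 * n) m) + SG μ J (W k a (2 * n + 1) m)) + q k a n m
  lip : ∀ k a n m, k₀ ≤ k → k ≤ a → a < N →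
    (M₀ k a n m * X₀ k a n m * (M₀ k a n m)ᵀ).trace
      + (M₁ k a n m * X₁ k a n m * (M₁ k a n m)ᵀ).trace ≤ q k a n m
  mid : ∀ k a n m, k₀ ≤ k → k + 1 ≤ a → a ≤ N →
    SG μ J (W (k + 1) a n m) + γ k a n m
      ≤ (1 / 2) * (SG μ J (W k a n (2 * m)) + SG μ J (W k a n (2 * m + 1))) + p k a n m
  hH : ∀ k a, k₀ ≤ k → k ≤ a → a ≤ N →
    (2 : ℝ) ^ a * 2 ^ k * ∑ m ∈ iv (N - k) S, ∑ n ∈ iv (N - a) R, (W k a n m).trace ≤ H
  hQo : ∀ r, ∑ k ∈ Ico k₀ (N - r), (2 : ℝ) ^ (k + r + 1) * 2 ^ k * ∑ m ∈ iv (N - k) S,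
    ∑ n ∈ iv (N - (k + r + 1)) R, q k (k + r) n m ≤ Qo
  hQm : ∀ r, ∑ k ∈ Ico k₀ (N - r), (2 : ℝ) ^ (k + 1 + r) * 2 ^ (k + 1)
    * ∑ m ∈ iv (N - (k + 1)) S, ∑ n ∈ iv (N - (k + 1 + r)) R, p k (k + 1 + r) n m ≤ Qm

section stk

variable {k₀ N : ℕ} {R S : ℤ} {ι : ℕ → Type*} [∀ k, Fintype (ι k)] [∀ k, DecidableEq (ι k)]
  {μ : ℝ} {J : ℕ} {W X₀ X₁ M₀ M₁ : ∀ k, ℕ → ℤ → ℤ → Matrix (ι k) (ι k) ℝ}
  {q p γ : ℕ → ℕ → ℤ → ℤ → ℝ} {H Qo Qm : ℝ}

theorem Stk.H_nonneg (h : Stk k₀ N R S μ J W X₀ X₁ M₀ M₁ q p γ H Qo Qm) : 0 ≤ H :=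
  (bsum_nonneg (R := R) (S := S) (k := k₀) (a := k₀) (N := N)
    (f := fun n m => (W k₀ k₀ n m).trace) fun _ _ => (h.psd _ _ _ _).trace_nonneg).trans
    (h.hH k₀ k₀ le_rfl le_rfl h.hkN)

theorem Stk.Qo_nonneg (h : Stk k₀ N R S μ J W X₀ X₁ M₀ M₁ q p γ H Qo Qm) : 0 ≤ Qo := by
  have := h.hQo N
  rwa [Nat.sub_self, Ico_eq_empty (by omega), sum_empty] at this

theorem Stk.Qm_nonneg (h : Stk k₀ N R S μ J W X₀ X₁ M₀ M₁ q p γ H Qo Qm) : 0 ≤ Qm := by
  have := h.hQm N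
  rwa [Nat.sub_self, Ico_eq_empty (by omega), sum_empty] at this

/-- **Own energy on the diagonals**: the defects of the outer steps and the middle gains. -/
theorem Stk.own_diag (h : Stk k₀ N R S μ J W X₀ X₁ M₀ M₁ q p γ H Qo Qm) (r : ℕ) :
    ∑ k ∈ Ico k₀ (N - r), (1 / 4) * ((2 : ℝ) ^ (k + r + 1) * 2 ^ k * ∑ m ∈ iv (N - k) S,
        ∑ n ∈ iv (N - (k + r + 1)) R, SD μ J (X₀ k (k + r) n m) (X₁ k (k + r) n m))
      + ∑ k ∈ Ico k₀ (N - r), (2 : ℝ) ^ (k + 1 + r) * 2 ^ (k + 1)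
        * ∑ m ∈ iv (N - (k + 1)) S, ∑ n ∈ iv (N - (k + 1 + r)) R, γ k (k + 1 + r) n m
      ≤ ((J : ℝ) + 1) * H + Qo + Qm := by
  have hH0 := h.H_nonneg
  have hO0 := h.Qo_nonneg
  have hM0 := h.Qm_nonneg
  have hμ := h.hμ
  by_cases hr : k₀ + r ≤ N
  · have key := diag (k₀ := k₀) (N := N)
      (E := fun k a => bsum N R S k a fun n m => SG μ J (W k a n m))
      (G := fun k a => (1 / 4) * bsum N R S k (a + 1) fun n m =>
        SD μ J (X₀ k a n m) (X₁ k a n m))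
      (G' := fun k a => bsum N R S (k + 1) a fun n m => γ k a n m)
      (q := fun k a => bsum N R S k (a + 1) fun n m => q k a n m)
      (p := fun k a => bsum N R S (k + 1) a fun n m => p k a n m)
      (fun k a h1 h2 h3 => by
        rw [← bsum_outer h3 R S (fun n m => SG μ J (W k a n m)), ← bsum_smul, ← bsum_add,
          ← bsum_add]
        exact bsum_mono fun n m => h.out k a n m h1 h2 h3)
      (fun k a h1 h2 h3 => by
        rw [← bsum_mid (by omega : k < N) R S (fun n m => SG μ J (W k a n m)), ← bsum_add,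
          ← bsum_add]
        exact bsum_mono fun n m => h.mid k a n m h1 h2 h3)
      r (N - r) (by omega) (by omega)
    have e1 : 0 ≤ bsum N R S (N - r) (N - r + r) fun n m => SG μ J (W (N - r) (N - r + r) n m) :=
      bsum_nonneg fun n m => SG_nonneg (h.psd _ _ _ _) hμ J
    have e2 : (bsum N R S k₀ (k₀ + r) fun n m => SG μ J (W k₀ (k₀ + r) n m))
        ≤ ((J : ℝ) + 1) * H := by
      have h1 := h.hH k₀ (k₀ + r) le_rfl (by omega) hr
      have h2 : (bsum N R S k₀ (k₀ + r) fun n m => SG μ J (W k₀ (k₀ + r) n m))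
          ≤ bsum N R S k₀ (k₀ + r) fun n m => ((J : ℝ) + 1) * (W k₀ (k₀ + r) n m).trace :=
        bsum_mono fun n m => SG_le (h.psd _ _ _ _) hμ J
      rw [bsum_smul] at h2
      exact h2.trans (mul_le_mul_of_nonneg_left h1 (by positivity))
    have e3 := h.hQo r
    have e4 := h.hQm r
    simp only [bsum] at key e1 e2
    linarith
  · rw [Ico_eq_empty (by omega), sum_empty, sum_empty]
    have : 0 ≤ ((J : ℝ) + 1) * H := by positivity
    linarith

theorem Stk.outer_diag (h : Stk k₀ N R S μ J W X₀ X₁ M₀ M₁ q p γ H Qo Qm) (r : ℕ) :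
    ∑ k ∈ Ico k₀ (N - r), (2 : ℝ) ^ (k + r + 1) * 2 ^ k * ∑ m ∈ iv (N - k) S,
        ∑ n ∈ iv (N - (k + r + 1)) R, SD μ J (X₀ k (k + r) n m) (X₁ k (k + r) n m)
      ≤ 4 * (((J : ℝ) + 1) * H + Qo + Qm) := by
  have h1 := h.own_diag r
  have h2 : 0 ≤ ∑ k ∈ Ico k₀ (N - r), (2 : ℝ) ^ (k + 1 + r) * 2 ^ (k + 1)
        * ∑ m ∈ iv (N - (k + 1)) S, ∑ n ∈ iv (N - (k + 1 + r)) R, γ k (k + 1 + r) n m :=
    sum_nonneg fun k _ => mul_nonneg (by positivity)
      (sum_nonneg fun m _ => sum_nonneg fun n _ => h.nγ _ _ _ _)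
  rw [← mul_sum] at h1
  linarith

theorem Stk.mid_diag (h : Stk k₀ N R S μ J W X₀ X₁ M₀ M₁ q p γ H Qo Qm) (r : ℕ) :
    ∑ k ∈ Ico k₀ (N - r), (2 : ℝ) ^ (k + 1 + r) * 2 ^ (k + 1)
        * ∑ m ∈ iv (N - (k + 1)) S, ∑ n ∈ iv (N - (k + 1 + r)) R, γ k (k + 1 + r) n m
      ≤ ((J : ℝ) + 1) * H + Qo + Qm := by
  have h1 := h.own_diag r
  have h2 : 0 ≤ ∑ k ∈ Ico k₀ (N - r), (1 / 4) * ((2 : ℝ) ^ (k + r + 1) * 2 ^ k
      * ∑ m ∈ iv (N - k) S, ∑ n ∈ iv (N - (k + r + 1)) R,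
        SD μ J (X₀ k (k + r) n m) (X₁ k (k + r) n m)) :=
    sum_nonneg fun k _ => mul_nonneg (by norm_num) (mul_nonneg (by positivity)
      (sum_nonneg fun m _ => sum_nonneg fun n _ => SD_nonneg (h.psd0 _ _ _ _) (h.psd1 _ _ _ _)
        h.hμ J))
  linarith

/-- **The plane energy of the capped stack family.** -/
theorem Stk.TV_stack (h : Stk k₀ N R S μ J W X₀ X₁ M₀ M₁ q p γ H Qo Qm) {j : ℕ} (hj : j ≤ J) :
    TV k₀ N R S (fun k a n m => phs ((μ / 4 ^ j)⁻¹) (W k a n m))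
      ≤ 1300 * (μ / 4 ^ j)⁻¹ * (((J : ℝ) + 1) * H + Qo + Qm) := by
  have hμ := h.hμ
  have hH0 := h.H_nonneg
  have hO0 := h.Qo_nonneg
  have hM0 := h.Qm_nonneg
  have hμj : 0 < μ / 4 ^ j := by positivity
  set s : ℝ := (μ / 4 ^ j)⁻¹ with hs
  have s0 : 0 < s := inv_pos.2 hμj
  have hsi : s⁻¹ = μ / 4 ^ j := by rw [hs, inv_inv]
  set X : ℝ := ((J : ℝ) + 1) * H + Qo + Qm with hX
  have hJ : (0 : ℝ) ≤ J := Nat.cast_nonneg J
  have hHX : H ≤ X := by rw [hX]; nlinarith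
  have hX0 : 0 ≤ X := hH0.trans hHX
  -- own energies
  have hEW : ∀ k a, k₀ ≤ k → k ≤ a → a ≤ N →
      EW N R S k (fun a n m => phs s (W k a n m)) a ≤ s * X := by
    intro k a h1 h2 h3
    have e1 : EW N R S k (fun a n m => phs s (W k a n m)) a
        = bsum N R S k a fun n m => H389.sq (phs s (W k a n m)) := rfl
    have e2 : (bsum N R S k a fun n m => H389.sq (phs s (W k a n m)))
        ≤ bsum N R S k a fun n m => s * (W k a n m).trace :=
      bsum_mono fun n m => sq_phs_le (h.psd _ _ _ _) s0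
    rw [bsum_smul] at e2
    have e3 := h.hH k a h1 h2 h3
    have e4 : s * (bsum N R S k a fun n m => (W k a n m).trace) ≤ s * X :=
      mul_le_mul_of_nonneg_left (e3.trans hHX) s0.le
    linarith
  -- level energies
  have hlev : ∀ k r, k₀ ≤ k → k + r < N →
      (2 : ℝ) ^ k * ∑ m ∈ iv (N - k) S, lvV N R (fun a n => phs s (W k a n m)) (k + r)
      ≤ 4 * s * ((2 : ℝ) ^ (k + r + 1) * 2 ^ k * ∑ m ∈ iv (N - k) S,
          ∑ n ∈ iv (N - (k + r + 1)) R, SD μ J (X₀ k (k + r) n m) (X₁ k (k + r) n m))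
        + s * ((2 : ℝ) ^ (k + r + 1) * 2 ^ k * ∑ m ∈ iv (N - k) S,
          ∑ n ∈ iv (N - (k + r + 1)) R, q k (k + r) n m) := by
    intro k r h1 h2
    have e1 : (2 : ℝ) ^ k * ∑ m ∈ iv (N - k) S, lvV N R (fun a n => phs s (W k a n m)) (k + r)
        = (1 / 2) * bsum N R S k (k + r + 1) fun n m =>
          (H389.sq (phs s (W k (k + r) (2 * n) m) - phs s (W k (k + r + 1) n m))
            + H389.sq (phs s (W k (k + r) (2 * n + 1) m) - phs s (W k (k + r + 1) n m))) := by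
      unfold lvV bsum
      rw [← mul_sum, pow_succ]
      ring
    have e2 : (bsum N R S k (k + r + 1) fun n m =>
          (H389.sq (phs s (W k (k + r) (2 * n) m) - phs s (W k (k + r + 1) n m))
            + H389.sq (phs s (W k (k + r) (2 * n + 1) m) - phs s (W k (k + r + 1) n m))))
        ≤ bsum N R S k (k + r + 1) fun n m =>
          8 * s * SD μ J (X₀ k (k + r) n m) (X₁ k (k + r) n m) + 2 * s * q k (k + r) n m := by
      refine bsum_mono fun n m => ?_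
      rw [h.par k (k + r) n m h1 (by omega) h2, h.ch0 k (k + r) n m h1 (by omega) h2,
        h.ch1 k (k + r) n m h1 (by omega) h2]
      have f1 := phs_step (h.psd0 k (k + r) n m) (h.psd1 k (k + r) n m) s0
        (M₀ k (k + r) n m) (M₁ k (k + r) n m)
      have f2 := h.lip k (k + r) n m h1 (by omega) h2
      have f3 := le_SD (h.psd0 k (k + r) n m) (h.psd1 k (k + r) n m) hμ hj
      rw [← hs] at f3
      rw [hsi] at f1
      have f4 := mul_le_mul_of_nonneg_left f2 (by positivity : (0 : ℝ) ≤ 2 * s)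
      have f5 := mul_le_mul_of_nonneg_left f3 (by positivity : (0 : ℝ) ≤ 8 * s)
      nlinarith
    have e3 : (bsum N R S k (k + r + 1) fun n m =>
          8 * s * SD μ J (X₀ k (k + r) n m) (X₁ k (k + r) n m) + 2 * s * q k (k + r) n m)
        = 8 * s * (bsum N R S k (k + r + 1) fun n m => SD μ J (X₀ k (k + r) n m)
            (X₁ k (k + r) n m))
          + 2 * s * bsum N R S k (k + r + 1) fun n m => q k (k + r) n m := by
      rw [← bsum_smul, ← bsum_smul, ← bsum_add]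
    rw [e3] at e2
    rw [e1]
    unfold bsum at e2 ⊢
    linarith
  -- the sum over all diagonals
  have hdiag : ∀ r, ∑ k ∈ Ico k₀ (N - r),
      ((2 : ℝ) ^ k * ∑ m ∈ iv (N - k) S, lvV N R (fun a n => phs s (W k a n m)) (k + r))
      ≤ 17 * (s * X) := by
    intro r
    have e1 := h.outer_diag r
    have e2 := h.hQo r
    calc ∑ k ∈ Ico k₀ (N - r), ((2 : ℝ) ^ k * ∑ m ∈ iv (N - k) S,
          lvV N R (fun a n => phs s (W k a n m)) (k + r))
        ≤ ∑ k ∈ Ico k₀ (N - r), (4 * s * ((2 : ℝ) ^ (k + r + 1) * 2 ^ k * ∑ m ∈ iv (N - k) S,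
          ∑ n ∈ iv (N - (k + r + 1)) R, SD μ J (X₀ k (k + r) n m) (X₁ k (k + r) n m))
        + s * ((2 : ℝ) ^ (k + r + 1) * 2 ^ k * ∑ m ∈ iv (N - k) S,
          ∑ n ∈ iv (N - (k + r + 1)) R, q k (k + r) n m)) :=
          sum_le_sum fun k hk => by
            have := mem_Ico.1 hk
            exact hlev k r this.1 (by omega)
      _ ≤ 4 * s * (4 * X) + s * Qo := by
          rw [sum_add_distrib, ← mul_sum, ← mul_sum]
          exact add_le_add (mul_le_mul_of_nonneg_left e1 (by positivity))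
            (mul_le_mul_of_nonneg_left e2 s0.le)
      _ ≤ 17 * (s * X) := by
          have : s * Qo ≤ s * X := mul_le_mul_of_nonneg_left (by
            have : 0 ≤ ((J : ℝ) + 1) * H := by positivity
            linarith) s0.le
          linarith
  have hsX : 0 ≤ s * X := mul_nonneg s0.le hX0
  have hall := diag_sum (k₀ := k₀) (N := N)
    (f := fun k r => (2 : ℝ) ^ k * ∑ m ∈ iv (N - k) S,
      lvV N R (fun a n => phs s (W k a n m)) (k + r)) hdiag (by positivity)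
  have htop : ∑ k ∈ Ico k₀ N, (3 / 4 : ℝ) ^ (N - k)
      * EW N R S k (fun a n m => phs s (W k a n m)) N ≤ 4 * (s * X) := by
    calc _ ≤ ∑ k ∈ Ico k₀ N, (3 / 4 : ℝ) ^ (N - k) * (s * X) :=
          sum_le_sum fun k hk => by
            have := mem_Ico.1 hk
            exact mul_le_mul_of_nonneg_left (hEW k N this.1 (by omega) le_rfl) (by positivity)
      _ = (∑ k ∈ Ico k₀ N, (3 / 4 : ℝ) ^ (N - k)) * (s * X) := (sum_mul ..).symm
      _ ≤ 4 * (s * X) := mul_le_mul_of_nonneg_right (geo' h.hkN) hsX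
  have hSVM : ∀ k, SVM N k R S (fun a n m => phs s (W k a n m))
      = ∑ r ∈ range (N - k), (3 / 4 : ℝ) ^ r * ((2 : ℝ) ^ k * ∑ m ∈ iv (N - k) S,
          lvV N R (fun a n => phs s (W k a n m)) (k + r))
        + (3 / 4 : ℝ) ^ (N - k) * EW N R S k (fun a n m => phs s (W k a n m)) N := by
    intro k
    unfold SVM SV
    rw [EW_eq, sum_add_distrib, mul_add, sum_comm]
    congr 1
    · rw [mul_sum]
      refine sum_congr rfl fun r _ => ?_
      rw [← mul_sum]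
      ring
    · rw [← mul_sum]
      ring
  have hsum : ∑ k ∈ Ico k₀ N, SVM N k R S (fun a n m => phs s (W k a n m))
      ≤ 72 * (s * X) := by
    simp only [hSVM, sum_add_distrib]
    linarith
  unfold TV
  have h1 := hEW k₀ k₀ le_rfl le_rfl h.hkN
  have h2 := hEW N N h.hkN le_rfl le_rfl
  linarith

end stk

end

end Vale.Agent.P141.H336
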