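import Vale.Agent.P141.H125.Stk0

/-!
# P141, line (A): the plane energy of a capped stack family, linear form

`StkR`: the data of `Stk` with a number for every single diagonal; the energy is asked only at the
first middle scale `k₀`. `EstR`: the total energy, linear in all numbers.
`StkR.TV_stack`, `StkR.own_diag`, `StkR.en`, `Stk.refine`, `Stk0.toR`.
-/

namespace Vale.Agent.P141.H336

open Finset Matrix Vale.Agent.P075 Vale.Agent.P141.PL Vale.Agent.P141.H103 Vale.Agent.P141.H389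
  Vale.Agent.P141.H505 Vale.Agent.P141.H585.PairCh

noncomputable section

/-- weighted sum over all diagonals, with a bound for every diagonal -/
theorem diag_sumR {k₀ N : ℕ} {f : ℕ → ℕ → ℝ} {B : ℕ → ℝ}
    (h : ∀ r, ∑ k ∈ Ico k₀ (N - r), f k r ≤ B r) (hB : ∀ r, 0 ≤ B r) :
    ∑ k ∈ Ico k₀ N, ∑ r ∈ range (N - k), (3 / 4 : ℝ) ^ r * f k r
      ≤ ∑ r ∈ range (N + 1), (3 / 4 : ℝ) ^ r * B r := by
  rw [Finset.sum_comm' (t' := range (N - k₀)) (s' := fun r => Ico k₀ (N - r)) (by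
    intro k r
    simp only [mem_Ico, mem_range]
    omega)]
  simp only [← mul_sum]
  calc ∑ r ∈ range (N - k₀), (3 / 4 : ℝ) ^ r * ∑ k ∈ Ico k₀ (N - r), f k r
      ≤ ∑ r ∈ range (N - k₀), (3 / 4 : ℝ) ^ r * B r :=
        sum_le_sum fun r _ => mul_le_mul_of_nonneg_left (h r) (by positivity)
    _ ≤ ∑ r ∈ range (N + 1), (3 / 4 : ℝ) ^ r * B r :=
        sum_le_sum_of_subset_of_nonneg (range_subset_range.2 (by omega))
          fun r _ _ => mul_nonneg (by positivity) (hB r)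

/-- The data of a stack family, linear form: a number for every diagonal `r`. -/
structure StkR (k₀ N : ℕ) (R S : ℤ) {ι : ℕ → Type*} [∀ k, Fintype (ι k)]
    [∀ k, DecidableEq (ι k)] (μ : ℝ) (J : ℕ)
    (W X₀ X₁ M₀ M₁ : ∀ k, ℕ → ℤ → ℤ → Matrix (ι k) (ι k) ℝ)
    (q p γ : ℕ → ℕ → ℤ → ℤ → ℝ) (H Qo Qm : ℕ → ℝ) : Prop where
  hkN : k₀ ≤ N
  hμ : 0 < μ
  psd : ∀ k a n m, (W k a n m).PosSemidef
  psd0 : ∀ k a n m, (X₀ k a n m).PosSemidef
  psd1 : ∀ k a n m, (X₁ k a n m).PosSemidef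
  nγ : ∀ k a n m, 0 ≤ γ k a n m
  np : ∀ k a n m, 0 ≤ p k a n m
  par : ∀ k a n m, k₀ ≤ k → k ≤ a → a < N →
    W k (a + 1) n m = (1 / 2 : ℝ) • (X₀ k a n m + X₁ k a n m)
  ch0 : ∀ k a n m, k₀ ≤ k → k ≤ a → a < N → W k a (2 * n) m = mv (M₀ k a n m) (X₀ k a n m)
  ch1 : ∀ k a n m, k₀ ≤ k → k ≤ a → a < N → W k a (2 * n + 1) m = mv (M₁ k a n m) (X₁ k a n m)
  out : ∀ k a n m, k₀ ≤ k → k ≤ a → a < N →
    SG μ J (W k (a + 1) n m) + (1 / 4) * SD μ J (X₀ k a n m) (X₁ k a n m)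
      ≤ (1 / 2) * (SG μ J (W k a (2 * n) m) + SG μ J (W k a (2 * n + 1) m)) + q k a n m
  lip : ∀ k a n m, k₀ ≤ k → k ≤ a → a < N →
    (M₀ k a n m * X₀ k a n m * (M₀ k a n m)ᵀ).trace
      + (M₁ k a n m * X₁ k a n m * (M₁ k a n m)ᵀ).trace ≤ q k a n m
  mid : ∀ k a n m, k₀ ≤ k → k + 1 ≤ a → a ≤ N →
    SG μ J (W (k + 1) a n m) + γ k a n m
      ≤ (1 / 2) * (SG μ J (W k a n (2 * m)) + SG μ J (W k a n (2 * m + 1))) + p k a n m
  nH : ∀ r, 0 ≤ H r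
  nQo : ∀ r, 0 ≤ Qo r
  nQm : ∀ r, 0 ≤ Qm r
  hH : ∀ r, k₀ + r ≤ N →
    (2 : ℝ) ^ (k₀ + r) * 2 ^ k₀ * ∑ m ∈ iv (N - k₀) S, ∑ n ∈ iv (N - (k₀ + r)) R,
      (W k₀ (k₀ + r) n m).trace ≤ H r
  hQo : ∀ r, ∑ k ∈ Ico k₀ (N - r), (2 : ℝ) ^ (k + r + 1) * 2 ^ k * ∑ m ∈ iv (N - k) S,
    ∑ n ∈ iv (N - (k + r + 1)) R, q k (k + r) n m ≤ Qo r
  hQm : ∀ r, ∑ k ∈ Ico k₀ (N - r), (2 : ℝ) ^ (k + 1 + r) * 2 ^ (k + 1)
    * ∑ m ∈ iv (N - (k + 1)) S, ∑ n ∈ iv (N - (k + 1 + r)) R, p k (k + 1 + r) n m ≤ Qm r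

/-- total energy, linear in the numbers -/
def EstR (N J : ℕ) (H Qo Qm : ℕ → ℝ) : ℝ :=
  ∑ r ∈ range (N + 1), (3 / 4 : ℝ) ^ r * (((J : ℝ) + 1) * H r + Qo r + Qm r)

theorem EstR_mono {N J : ℕ} {H Qo Qm H' Qo' Qm' : ℕ → ℝ} (h1 : ∀ r, H r ≤ H' r)
    (h2 : ∀ r, Qo r ≤ Qo' r) (h3 : ∀ r, Qm r ≤ Qm' r) : EstR N J H Qo Qm ≤ EstR N J H' Qo' Qm' :=
  sum_le_sum fun r _ => mul_le_mul_of_nonneg_left (by
    have e1 := mul_le_mul_of_nonneg_left (h1 r) (by positivity : (0 : ℝ) ≤ (J : ℝ) + 1)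
    have e2 := h2 r
    have e3 := h3 r
    linarith) (by positivity)

/-- sums of numbers -/
theorem EstR_sum {I : Type*} (s : Finset I) (N J : ℕ) (H Qo Qm : I → ℕ → ℝ) :
    ∑ i ∈ s, EstR N J (H i) (Qo i) (Qm i)
      = EstR N J (fun r => ∑ i ∈ s, H i r) (fun r => ∑ i ∈ s, Qo i r)
        (fun r => ∑ i ∈ s, Qm i r) := by
  unfold EstR
  rw [sum_comm]
  refine sum_congr rfl fun r _ => ?_
  rw [← mul_sum, sum_add_distrib, sum_add_distrib, ← mul_sum]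

/-- constant numbers -/
theorem EstR_const {N J : ℕ} {H Qo Qm : ℝ} (h1 : 0 ≤ H) (h2 : 0 ≤ Qo) (h3 : 0 ≤ Qm) :
    EstR N J (fun _ => H) (fun _ => Qo) (fun _ => Qm) ≤ 4 * (((J : ℝ) + 1) * H + Qo + Qm) := by
  unfold EstR
  rw [← sum_mul]
  exact mul_le_mul_of_nonneg_right (geo _) (by positivity)

section stk

variable {k₀ N : ℕ} {R S : ℤ} {ι : ℕ → Type*} [∀ k, Fintype (ι k)] [∀ k, DecidableEq (ι k)]
  {μ : ℝ} {J : ℕ} {W X₀ X₁ M₀ M₁ : ∀ k, ℕ → ℤ → ℤ → Matrix (ι k) (ι k) ℝ}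
  {q p γ : ℕ → ℕ → ℤ → ℤ → ℝ}

/-- **From `Stk` with any numbers to the linear form with better numbers.** -/
theorem Stk.refine {H Qo Qm : ℝ} (h : Stk k₀ N R S μ J W X₀ X₁ M₀ M₁ q p γ H Qo Qm)
    (np : ∀ k a n m, 0 ≤ p k a n m) {H' Qo' Qm' : ℕ → ℝ} (nH : ∀ r, 0 ≤ H' r)
    (nQo : ∀ r, 0 ≤ Qo' r) (nQm : ∀ r, 0 ≤ Qm' r)
    (hH : ∀ r, k₀ + r ≤ N →
      (2 : ℝ) ^ (k₀ + r) * 2 ^ k₀ * ∑ m ∈ iv (N - k₀) S, ∑ n ∈ iv (N - (k₀ + r)) R,
        (W k₀ (k₀ + r) n m).trace ≤ H' r)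
    (hQo : ∀ r, ∑ k ∈ Ico k₀ (N - r), (2 : ℝ) ^ (k + r + 1) * 2 ^ k * ∑ m ∈ iv (N - k) S,
      ∑ n ∈ iv (N - (k + r + 1)) R, q k (k + r) n m ≤ Qo' r)
    (hQm : ∀ r, ∑ k ∈ Ico k₀ (N - r), (2 : ℝ) ^ (k + 1 + r) * 2 ^ (k + 1)
      * ∑ m ∈ iv (N - (k + 1)) S, ∑ n ∈ iv (N - (k + 1 + r)) R, p k (k + 1 + r) n m ≤ Qm' r) :
    StkR k₀ N R S μ J W X₀ X₁ M₀ M₁ q p γ H' Qo' Qm' where
  hkN := h.hkN
  hμ := h.hμ
  psd := h.psd
  psd0 := h.psd0
  psd1 := h.psd1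
  nγ := h.nγ
  np := np
  par := h.par
  ch0 := h.ch0
  ch1 := h.ch1
  out := h.out
  lip := h.lip
  mid := h.mid
  nH := nH
  nQo := nQo
  nQm := nQm
  hH := hH
  hQo := hQo
  hQm := hQm

/-- every `Stk` is a `StkR` -/
theorem Stk.toR {H Qo Qm : ℝ} (h : Stk k₀ N R S μ J W X₀ X₁ M₀ M₁ q p γ H Qo Qm)
    (np : ∀ k a n m, 0 ≤ p k a n m) :
    StkR k₀ N R S μ J W X₀ X₁ M₀ M₁ q p γ (fun _ => H) (fun _ => Qo) (fun _ => Qm) :=
  h.refine np (fun _ => h.H_nonneg) (fun _ => h.Qo_nonneg) (fun _ => h.Qm_nonneg)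
    (fun r hr => h.hH k₀ (k₀ + r) le_rfl (by omega) hr) h.hQo h.hQm

/-- every `Stk0` is a `StkR` -/
theorem _root_.Vale.Agent.P141.H125.S0.Stk0.toR {H Qo Qm : ℝ}
    (h : H125.S0.Stk0 k₀ N R S μ J W X₀ X₁ M₀ M₁ q p γ H Qo Qm) :
    StkR k₀ N R S μ J W X₀ X₁ M₀ M₁ q p γ (fun _ => H) (fun _ => Qo) (fun _ => Qm) where
  hkN := h.hkN
  hμ := h.hμ
  psd := h.psd
  psd0 := h.psd0
  psd1 := h.psd1
  nγ := h.nγ
  np := h.np
  par := h.par
  ch0 := h.ch0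
  ch1 := h.ch1
  out := h.out
  lip := h.lip
  mid := h.mid
  nH _ := h.H_nonneg
  nQo _ := h.Qo_nonneg
  nQm _ := h.Qm_nonneg
  hH r hr := h.hH (k₀ + r) (by omega) hr
  hQo := h.hQo
  hQm := h.hQm

variable {H Qo Qm : ℕ → ℝ}

theorem StkR.X_nonneg (h : StkR k₀ N R S μ J W X₀ X₁ M₀ M₁ q p γ H Qo Qm) (r : ℕ) :
    0 ≤ ((J : ℝ) + 1) * H r + Qo r + Qm r := by
  have h1 := h.nH r
  have h2 := h.nQo r
  have h3 := h.nQm r
  positivity

/-- one diagonal, with its weight, is at most the total energy -/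
theorem StkR.X_le (h : StkR k₀ N R S μ J W X₀ X₁ M₀ M₁ q p γ H Qo Qm) :
    ((J : ℝ) + 1) * H 0 + Qo 0 + Qm 0 ≤ EstR N J H Qo Qm := by
  have h2 : (3 / 4 : ℝ) ^ 0 * (((J : ℝ) + 1) * H 0 + Qo 0 + Qm 0)
      ≤ ∑ r ∈ range (N + 1), (3 / 4 : ℝ) ^ r * (((J : ℝ) + 1) * H r + Qo r + Qm r) :=
    single_le_sum (f := fun r => (3 / 4 : ℝ) ^ r * (((J : ℝ) + 1) * H r + Qo r + Qm r))
      (fun r _ => mul_nonneg (by positivity) (h.X_nonneg r)) (mem_range.2 (by omega))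
  rw [pow_zero, one_mul] at h2
  exact h2

theorem StkR.Est_nonneg (h : StkR k₀ N R S μ J W X₀ X₁ M₀ M₁ q p γ H Qo Qm) :
    0 ≤ EstR N J H Qo Qm := (h.X_nonneg 0).trans h.X_le

/-- the error `q` is nonnegative where it is used -/
theorem StkR.nq (h : StkR k₀ N R S μ J W X₀ X₁ M₀ M₁ q p γ H Qo Qm) {k a : ℕ} (h1 : k₀ ≤ k)
    (h2 : k ≤ a) (h3 : a < N) (n m : ℤ) : 0 ≤ q k a n m := by
  have f : ∀ X M : Matrix (ι k) (ι k) ℝ, X.PosSemidef → 0 ≤ (M * X * Mᵀ).trace := by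
    intro X M hX
    exact (psd_conj hX M).trace_nonneg
  exact (add_nonneg (f _ _ (h.psd0 k a n m)) (f _ _ (h.psd1 k a n m))).trans
    (h.lip k a n m h1 h2 h3)

/-- **The diagonals**: defects, middle gains and the energy at any scale. -/
theorem StkR.key (h : StkR k₀ N R S μ J W X₀ X₁ M₀ M₁ q p γ H Qo Qm) (r : ℕ) {K : ℕ}
    (hK : k₀ ≤ K) (hKr : K + r ≤ N) :
    ∑ k ∈ Ico k₀ K, (1 / 4) * ((2 : ℝ) ^ (k + r + 1) * 2 ^ k * ∑ m ∈ iv (N - k) S,
        ∑ n ∈ iv (N - (k + r + 1)) R, SD μ J (X₀ k (k + r) n m) (X₁ k (k + r) n m))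
      + ∑ k ∈ Ico k₀ K, (2 : ℝ) ^ (k + 1 + r) * 2 ^ (k + 1)
        * ∑ m ∈ iv (N - (k + 1)) S, ∑ n ∈ iv (N - (k + 1 + r)) R, γ k (k + 1 + r) n m
      + bsum N R S K (K + r) (fun n m => SG μ J (W K (K + r) n m))
      ≤ ((J : ℝ) + 1) * H r + Qo r + Qm r := by
  have hμ := h.hμ
  have key := diag (k₀ := k₀) (N := N)
      (E := fun k a => bsum N R S k a fun n m => SG μ J (W k a n m))
      (G := fun k a => (1 / 4) * bsum N R S k (a + 1) fun n m =>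
        SD μ J (X₀ k a n m) (X₁ k a n m))
      (G' := fun k a => bsum N R S (k + 1) a fun n m => γ k a n m)
      (q := fun k a => bsum N R S k (a + 1) fun n m => q k a n m)
      (p := fun k a => bsum N R S (k + 1) a fun n m => p k a n m)
      (fun k a h1 h2 h3 => by
        rw [← bsum_outer h3 R S (fun n m => SG μ J (W k a n m)), ← bsum_smul, ← bsum_add,
          ← bsum_add]
        exact bsum_mono fun n m => h.out k a n m h1 h2 h3)
      (fun k a h1 h2 h3 => by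
        rw [← bsum_mid (by omega : k < N) R S (fun n m => SG μ J (W k a n m)), ← bsum_add,
          ← bsum_add]
        exact bsum_mono fun n m => h.mid k a n m h1 h2 h3)
      r K hK hKr
  have e2 : (bsum N R S k₀ (k₀ + r) fun n m => SG μ J (W k₀ (k₀ + r) n m))
      ≤ ((J : ℝ) + 1) * H r := by
    have h1 := h.hH r (by omega)
    have h2 : (bsum N R S k₀ (k₀ + r) fun n m => SG μ J (W k₀ (k₀ + r) n m))
        ≤ bsum N R S k₀ (k₀ + r) fun n m => ((J : ℝ) + 1) * (W k₀ (k₀ + r) n m).trace :=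
      bsum_mono fun n m => SG_le (h.psd _ _ _ _) hμ J
    rw [bsum_smul] at h2
    exact h2.trans (mul_le_mul_of_nonneg_left h1 (by positivity))
  have hsub : Ico k₀ K ⊆ Ico k₀ (N - r) := by
    intro k hk
    rw [mem_Ico] at hk ⊢
    omega
  have e3 : ∑ k ∈ Ico k₀ K, (bsum N R S k (k + r + 1) fun n m => q k (k + r) n m) ≤ Qo r := by
    refine le_trans ?_ (h.hQo r)
    refine sum_le_sum_of_subset_of_nonneg hsub fun k hk _ => ?_
    rw [mem_Ico] at hk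
    exact mul_nonneg (by positivity) (sum_nonneg fun m _ => sum_nonneg fun n _ =>
      h.nq hk.1 (by omega) (by omega) n m)
  have e4 : ∑ k ∈ Ico k₀ K, (bsum N R S (k + 1) (k + 1 + r) fun n m => p k (k + 1 + r) n m)
      ≤ Qm r := by
    refine le_trans ?_ (h.hQm r)
    refine sum_le_sum_of_subset_of_nonneg hsub fun k hk _ => ?_
    exact mul_nonneg (by positivity) (sum_nonneg fun m _ => sum_nonneg fun n _ =>
      h.np _ _ _ _)
  simp only [bsum] at key e2 e3 e4 ⊢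
  linarith

/-- **Own energy on the diagonals**: the defects of the outer steps and the middle gains. -/
theorem StkR.own_diag (h : StkR k₀ N R S μ J W X₀ X₁ M₀ M₁ q p γ H Qo Qm) (r : ℕ) :
    ∑ k ∈ Ico k₀ (N - r), (1 / 4) * ((2 : ℝ) ^ (k + r + 1) * 2 ^ k * ∑ m ∈ iv (N - k) S,
        ∑ n ∈ iv (N - (k + r + 1)) R, SD μ J (X₀ k (k + r) n m) (X₁ k (k + r) n m))
      + ∑ k ∈ Ico k₀ (N - r), (2 : ℝ) ^ (k + 1 + r) * 2 ^ (k + 1)
        * ∑ m ∈ iv (N - (k + 1)) S, ∑ n ∈ iv (N - (k + 1 + r)) R, γ k (k + 1 + r) n m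
      ≤ ((J : ℝ) + 1) * H r + Qo r + Qm r := by
  by_cases hr : k₀ + r ≤ N
  · have k1 := h.key r (K := N - r) (by omega) (by omega)
    have e1 : 0 ≤ bsum N R S (N - r) (N - r + r) fun n m => SG μ J (W (N - r) (N - r + r) n m) :=
      bsum_nonneg fun n m => SG_nonneg (h.psd _ _ _ _) h.hμ J
    linarith
  · rw [Ico_eq_empty (by omega), sum_empty, sum_empty]
    have := h.X_nonneg r
    linarith

/-- **The energy at every scale**: no hypothesis at the scales above `k₀`. -/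
theorem StkR.en (h : StkR k₀ N R S μ J W X₀ X₁ M₀ M₁ q p γ H Qo Qm) {k r : ℕ} (h1 : k₀ ≤ k)
    (h3 : k + r ≤ N) :
    (2 : ℝ) ^ (k + r) * 2 ^ k * ∑ m ∈ iv (N - k) S, ∑ n ∈ iv (N - (k + r)) R,
      SG μ J (W k (k + r) n m) ≤ ((J : ℝ) + 1) * H r + Qo r + Qm r := by
  have k1 := h.key r (K := k) h1 h3
  have e1 : 0 ≤ ∑ j ∈ Ico k₀ k, (1 / 4) * ((2 : ℝ) ^ (j + r + 1) * 2 ^ j * ∑ m ∈ iv (N - j) S,
      ∑ n ∈ iv (N - (j + r + 1)) R, SD μ J (X₀ j (j + r) n m) (X₁ j (j + r) n m)) :=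
    sum_nonneg fun k _ => mul_nonneg (by norm_num) (mul_nonneg (by positivity)
      (sum_nonneg fun m _ => sum_nonneg fun n _ => SD_nonneg (h.psd0 _ _ _ _) (h.psd1 _ _ _ _)
        h.hμ J))
  have e2 : 0 ≤ ∑ k ∈ Ico k₀ k, (2 : ℝ) ^ (k + 1 + r) * 2 ^ (k + 1)
        * ∑ m ∈ iv (N - (k + 1)) S, ∑ n ∈ iv (N - (k + 1 + r)) R, γ k (k + 1 + r) n m :=
    sum_nonneg fun k _ => mul_nonneg (by positivity)
      (sum_nonneg fun m _ => sum_nonneg fun n _ => h.nγ _ _ _ _)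
  unfold bsum at k1
  linarith

theorem StkR.outer_diag (h : StkR k₀ N R S μ J W X₀ X₁ M₀ M₁ q p γ H Qo Qm) (r : ℕ) :
    ∑ k ∈ Ico k₀ (N - r), (2 : ℝ) ^ (k + r + 1) * 2 ^ k * ∑ m ∈ iv (N - k) S,
        ∑ n ∈ iv (N - (k + r + 1)) R, SD μ J (X₀ k (k + r) n m) (X₁ k (k + r) n m)
      ≤ 4 * (((J : ℝ) + 1) * H r + Qo r + Qm r) := by
  have h1 := h.own_diag r
  have h2 : 0 ≤ ∑ k ∈ Ico k₀ (N - r), (2 : ℝ) ^ (k + 1 + r) * 2 ^ (k + 1)
        * ∑ m ∈ iv (N - (k + 1)) S, ∑ n ∈ iv (N - (k + 1 + r)) R, γ k (k + 1 + r) n m :=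
    sum_nonneg fun k _ => mul_nonneg (by positivity)
      (sum_nonneg fun m _ => sum_nonneg fun n _ => h.nγ _ _ _ _)
  rw [← mul_sum] at h1
  linarith

theorem StkR.mid_diag (h : StkR k₀ N R S μ J W X₀ X₁ M₀ M₁ q p γ H Qo Qm) (r : ℕ) :
    ∑ k ∈ Ico k₀ (N - r), (2 : ℝ) ^ (k + 1 + r) * 2 ^ (k + 1)
        * ∑ m ∈ iv (N - (k + 1)) S, ∑ n ∈ iv (N - (k + 1 + r)) R, γ k (k + 1 + r) n m
      ≤ ((J : ℝ) + 1) * H r + Qo r + Qm r := by
  have h1 := h.own_diag r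
  have h2 : 0 ≤ ∑ k ∈ Ico k₀ (N - r), (1 / 4) * ((2 : ℝ) ^ (k + r + 1) * 2 ^ k
      * ∑ m ∈ iv (N - k) S, ∑ n ∈ iv (N - (k + r + 1)) R,
        SD μ J (X₀ k (k + r) n m) (X₁ k (k + r) n m)) :=
    sum_nonneg fun k _ => mul_nonneg (by norm_num) (mul_nonneg (by positivity)
      (sum_nonneg fun m _ => sum_nonneg fun n _ => SD_nonneg (h.psd0 _ _ _ _) (h.psd1 _ _ _ _)
        h.hμ J))
  linarith

/-- **The plane energy of the capped stack family, linear form.** -/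
theorem StkR.TV_stack (h : StkR k₀ N R S μ J W X₀ X₁ M₀ M₁ q p γ H Qo Qm) {j : ℕ}
    (hj : j ≤ J) :
    TV k₀ N R S (fun k a n m => phs ((μ / 4 ^ j)⁻¹) (W k a n m))
      ≤ 400 * (μ / 4 ^ j)⁻¹ * EstR N J H Qo Qm := by
  have hμ := h.hμ
  have hμj : 0 < μ / 4 ^ j := by positivity
  set s : ℝ := (μ / 4 ^ j)⁻¹ with hs
  have s0 : 0 < s := inv_pos.2 hμj
  have hsi : s⁻¹ = μ / 4 ^ j := by rw [hs, inv_inv]
  set X : ℕ → ℝ := fun r => ((J : ℝ) + 1) * H r + Qo r + Qm r with hX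
  have hJ : (0 : ℝ) ≤ J := Nat.cast_nonneg J
  have hX0 : ∀ r, 0 ≤ X r := h.X_nonneg
  set wX : ℝ := ∑ r ∈ range (N + 1), (3 / 4 : ℝ) ^ r * X r with hwX
  have hE : EstR N J H Qo Qm = wX := rfl
  have hXw : X 0 ≤ wX := h.X_le
  have hw0 : 0 ≤ wX := (hX0 0).trans hXw
  -- own energies
  have hEW : ∀ k r, k₀ ≤ k → k + r ≤ N →
      EW N R S k (fun a n m => phs s (W k a n m)) (k + r) ≤ 4 * s * X r := by
    intro k r h1 h3
    have e1 : EW N R S k (fun a n m => phs s (W k a n m)) (k + r)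
        = bsum N R S k (k + r) fun n m => H389.sq (phs s (W k (k + r) n m)) := rfl
    have e2 : (bsum N R S k (k + r) fun n m => H389.sq (phs s (W k (k + r) n m)))
        ≤ bsum N R S k (k + r) fun n m => 4 * s * SG μ J (W k (k + r) n m) :=
      bsum_mono fun n m => H125.S0.sq_phs_le_SG (h.psd _ _ _ _) hμ hj
    rw [bsum_smul] at e2
    have e3 := h.en h1 h3
    have e4 : 4 * s * (bsum N R S k (k + r) fun n m => SG μ J (W k (k + r) n m)) ≤ 4 * s * X r :=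
      mul_le_mul_of_nonneg_left e3 (by positivity)
    linarith
  -- level energies
  have hlev : ∀ k r, k₀ ≤ k → k + r < N →
      (2 : ℝ) ^ k * ∑ m ∈ iv (N - k) S, lvV N R (fun a n => phs s (W k a n m)) (k + r)
      ≤ 4 * s * ((2 : ℝ) ^ (k + r + 1) * 2 ^ k * ∑ m ∈ iv (N - k) S,
          ∑ n ∈ iv (N - (k + r + 1)) R, SD μ J (X₀ k (k + r) n m) (X₁ k (k + r) n m))
        + s * ((2 : ℝ) ^ (k + r + 1) * 2 ^ k * ∑ m ∈ iv (N - k) S,
          ∑ n ∈ iv (N - (k + r + 1)) R, q k (k + r) n m) := by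
    intro k r h1 h2
    have e1 : (2 : ℝ) ^ k * ∑ m ∈ iv (N - k) S, lvV N R (fun a n => phs s (W k a n m)) (k + r)
        = (1 / 2) * bsum N R S k (k + r + 1) fun n m =>
          (H389.sq (phs s (W k (k + r) (2 * n) m) - phs s (W k (k + r + 1) n m))
            + H389.sq (phs s (W k (k + r) (2 * n + 1) m) - phs s (W k (k + r + 1) n m))) := by
      unfold lvV bsum
      rw [← mul_sum, pow_succ]
      ring
    have e2 : (bsum N R S k (k + r + 1) fun n m =>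
          (H389.sq (phs s (W k (k + r) (2 * n) m) - phs s (W k (k + r + 1) n m))
            + H389.sq (phs s (W k (k + r) (2 * n + 1) m) - phs s (W k (k + r + 1) n m))))
        ≤ bsum N R S k (k + r + 1) fun n m =>
          8 * s * SD μ J (X₀ k (k + r) n m) (X₁ k (k + r) n m) + 2 * s * q k (k + r) n m := by
      refine bsum_mono fun n m => ?_
      rw [h.par k (k + r) n m h1 (by omega) h2, h.ch0 k (k + r) n m h1 (by omega) h2,
        h.ch1 k (k + r) n m h1 (by omega) h2]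
      have f1 := phs_step (h.psd0 k (k + r) n m) (h.psd1 k (k + r) n m) s0
        (M₀ k (k + r) n m) (M₁ k (k + r) n m)
      have f2 := h.lip k (k + r) n m h1 (by omega) h2
      have f3 := le_SD (h.psd0 k (k + r) n m) (h.psd1 k (k + r) n m) hμ hj
      rw [← hs] at f3
      rw [hsi] at f1
      have f4 := mul_le_mul_of_nonneg_left f2 (by positivity : (0 : ℝ) ≤ 2 * s)
      have f5 := mul_le_mul_of_nonneg_left f3 (by positivity : (0 : ℝ) ≤ 8 * s)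
      nlinarith
    have e3 : (bsum N R S k (k + r + 1) fun n m =>
          8 * s * SD μ J (X₀ k (k + r) n m) (X₁ k (k + r) n m) + 2 * s * q k (k + r) n m)
        = 8 * s * (bsum N R S k (k + r + 1) fun n m => SD μ J (X₀ k (k + r) n m)
            (X₁ k (k + r) n m))
          + 2 * s * bsum N R S k (k + r + 1) fun n m => q k (k + r) n m := by
      rw [← bsum_smul, ← bsum_smul, ← bsum_add]
    rw [e3] at e2
    rw [e1]
    unfold bsum at e2 ⊢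
    linarith
  -- the sum over all diagonals
  have hdiag : ∀ r, ∑ k ∈ Ico k₀ (N - r),
      ((2 : ℝ) ^ k * ∑ m ∈ iv (N - k) S, lvV N R (fun a n => phs s (W k a n m)) (k + r))
      ≤ 17 * s * X r := by
    intro r
    have e1 := h.outer_diag r
    have e2 := h.hQo r
    calc ∑ k ∈ Ico k₀ (N - r), ((2 : ℝ) ^ k * ∑ m ∈ iv (N - k) S,
          lvV N R (fun a n => phs s (W k a n m)) (k + r))
        ≤ ∑ k ∈ Ico k₀ (N - r), (4 * s * ((2 : ℝ) ^ (k + r + 1) * 2 ^ k * ∑ m ∈ iv (N - k) S,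
          ∑ n ∈ iv (N - (k + r + 1)) R, SD μ J (X₀ k (k + r) n m) (X₁ k (k + r) n m))
        + s * ((2 : ℝ) ^ (k + r + 1) * 2 ^ k * ∑ m ∈ iv (N - k) S,
          ∑ n ∈ iv (N - (k + r + 1)) R, q k (k + r) n m)) :=
          sum_le_sum fun k hk => by
            have := mem_Ico.1 hk
            exact hlev k r this.1 (by omega)
      _ ≤ 4 * s * (4 * X r) + s * Qo r := by
          rw [sum_add_distrib, ← mul_sum, ← mul_sum]
          exact add_le_add (mul_le_mul_of_nonneg_left e1 (by positivity))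
            (mul_le_mul_of_nonneg_left e2 s0.le)
      _ ≤ 17 * s * X r := by
          have : s * Qo r ≤ s * X r := mul_le_mul_of_nonneg_left (by
            have h1 := h.nH r
            have h3 := h.nQm r
            have : 0 ≤ ((J : ℝ) + 1) * H r := by positivity
            simp only [hX]
            linarith) s0.le
          linarith
  have hall := diag_sumR (k₀ := k₀) (N := N)
    (f := fun k r => (2 : ℝ) ^ k * ∑ m ∈ iv (N - k) S,
      lvV N R (fun a n => phs s (W k a n m)) (k + r)) hdiag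
    (fun r => mul_nonneg (by positivity) (hX0 r))
  have hall' : ∑ r ∈ range (N + 1), (3 / 4 : ℝ) ^ r * (17 * s * X r) = 17 * s * wX := by
    rw [hwX, mul_sum]
    exact sum_congr rfl fun r _ => by ring
  rw [hall'] at hall
  -- the top
  have htop : ∑ k ∈ Ico k₀ N, (3 / 4 : ℝ) ^ (N - k)
      * EW N R S k (fun a n m => phs s (W k a n m)) N ≤ 4 * s * wX := by
    have t1 : ∑ k ∈ Ico k₀ N, (3 / 4 : ℝ) ^ (N - k)
        * EW N R S k (fun a n m => phs s (W k a n m)) N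
        ≤ ∑ k ∈ Ico k₀ N, (3 / 4 : ℝ) ^ (N - k) * (4 * s * X (N - k)) := by
      refine sum_le_sum fun k hk => ?_
      obtain ⟨k1, k2⟩ := mem_Ico.1 hk
      have := hEW k (N - k) k1 (by omega)
      rw [show k + (N - k) = N by omega] at this
      exact mul_le_mul_of_nonneg_left this (by positivity)
    have t2 : ∑ k ∈ Ico k₀ N, (3 / 4 : ℝ) ^ (N - k) * (4 * s * X (N - k))
        = ∑ r ∈ (Ico k₀ N).image (fun k => N - k), (3 / 4 : ℝ) ^ r * (4 * s * X r) := by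
      rw [sum_image]
      intro a ha b hb hab
      have ha' := mem_Ico.1 (Finset.mem_coe.1 ha)
      have hb' := mem_Ico.1 (Finset.mem_coe.1 hb)
      have : N - a = N - b := hab
      omega
    have t3 : ∑ r ∈ (Ico k₀ N).image (fun k => N - k), (3 / 4 : ℝ) ^ r * (4 * s * X r)
        ≤ ∑ r ∈ range (N + 1), (3 / 4 : ℝ) ^ r * (4 * s * X r) := by
      refine sum_le_sum_of_subset_of_nonneg ?_ fun r _ _ =>
        mul_nonneg (by positivity) (mul_nonneg (by positivity) (hX0 r))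
      intro r hr
      obtain ⟨k, _, rfl⟩ := mem_image.1 hr
      rw [mem_range]
      omega
    have t4 : ∑ r ∈ range (N + 1), (3 / 4 : ℝ) ^ r * (4 * s * X r) = 4 * s * wX := by
      rw [hwX, mul_sum]
      exact sum_congr rfl fun r _ => by ring
    linarith
  have hSVM : ∀ k, SVM N k R S (fun a n m => phs s (W k a n m))
      = ∑ r ∈ range (N - k), (3 / 4 : ℝ) ^ r * ((2 : ℝ) ^ k * ∑ m ∈ iv (N - k) S,
          lvV N R (fun a n => phs s (W k a n m)) (k + r))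
        + (3 / 4 : ℝ) ^ (N - k) * EW N R S k (fun a n m => phs s (W k a n m)) N := by
    intro k
    unfold SVM SV
    rw [EW_eq, sum_add_distrib, mul_add, sum_comm]
    congr 1
    · rw [mul_sum]
      refine sum_congr rfl fun r _ => ?_
      rw [← mul_sum]
      ring
    · rw [← mul_sum]
      ring
  have hsum : ∑ k ∈ Ico k₀ N, SVM N k R S (fun a n m => phs s (W k a n m))
      ≤ 21 * s * wX := by
    simp only [hSVM, sum_add_distrib]
    linarith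
  have hst : EW N R S k₀ (fun a n m => phs s (W k₀ a n m)) k₀ ≤ 4 * s * wX :=
    (hEW k₀ 0 le_rfl (by simpa using h.hkN)).trans
      (mul_le_mul_of_nonneg_left hXw (by positivity))
  have hNN : EW N R S N (fun a n m => phs s (W N a n m)) N ≤ 4 * s * wX :=
    (hEW N 0 h.hkN (by simp)).trans (mul_le_mul_of_nonneg_left hXw (by positivity))
  have hsw : 0 ≤ s * wX := mul_nonneg s0.le hw0
  rw [hE]
  unfold TV
  linarith

end stk

end

end Vale.Agent.P141.H336
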