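import Vale.Agent.P141.H92.NumAC
import Vale.Agent.P141.H336.TVr

/-!
# P141, line (A): pair sums of capped stack families, linear form

The number theorems of `H92.PairFin` and `H92.NumAC` for `StkR` with the total energy `EstR`:
`dh_sumR`, `gap_sumR`, `gcs_sumR`, `pairSS_finR`, `rawAC_numR`.
-/

namespace Vale.Agent.P141.H336

open Finset Matrix Vale.Agent.P141.PL Vale.Agent.P141.PL.H103 Vale.Agent.P141.H103
open Vale.Agent.P075 (phi delt GX Ix rad)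
open Vale.Agent.P141.H585.PairCh (phs dls mv)
open Vale.Agent.P141.H389
open Vale.Agent.P141.H505 (SG SD SC)
open Vale.Agent.P141.H92 (StO mv_zero' phs_psd phs_cap dh pairSS_total GW_left GW_right bsum_sub
  dls_nonneg dls_le GamC gcs sIx gcs_le rad_symm')

noncomputable section

section stk

variable {k₀ N : ℕ} {R S : ℤ} {ι : ℕ → Type*} [∀ k, Fintype (ι k)] [∀ k, DecidableEq (ι k)]
  {μ : ℝ} {J : ℕ} {W X₀ X₁ M₀ M₁ : ∀ k, ℕ → ℤ → ℤ → Matrix (ι k) (ι k) ℝ}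
  {q p γ : ℕ → ℕ → ℤ → ℤ → ℝ} {H Qo Qm : ℕ → ℝ}

theorem st0R (h : StkR k₀ N R S μ J W X₀ X₁ M₀ M₁ q p γ H Qo Qm) (hM : StO M₀ M₁) {k a : ℕ}
    (h1 : k₀ ≤ k) (h2 : k ≤ a) (h3 : a < N) (n m : ℤ) : X₀ k a n m = W k a (2 * n) m := by
  rw [h.ch0 k a n m h1 h2 h3, hM.1, mv_zero']

theorem st1R (h : StkR k₀ N R S μ J W X₀ X₁ M₀ M₁ q p γ H Qo Qm) (hM : StO M₀ M₁) {k a : ℕ}
    (h1 : k₀ ≤ k) (h2 : k ≤ a) (h3 : a < N) (n m : ℤ) : X₁ k a n m = W k a (2 * n + 1) m := by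
  rw [h.ch1 k a n m h1 h2 h3, hM.2, mv_zero']

/-- exact outer averages -/
theorem outMR (h : StkR k₀ N R S μ J W X₀ X₁ M₀ M₁ q p γ H Qo Qm) (hM : StO M₀ M₁) (k : ℕ)
    (h1 : k₀ ≤ k) (_ : k ≤ N) : OutM N k (W k) := fun a h3 h4 n m => by
  rw [h.par k a n m h1 h3 h4, st0R h hM h1 h3 h4, st1R h hM h1 h3 h4]

/-- **The sum of the defects of the two middle halves over all scales.** -/
theorem dh_sumR (h : StkR k₀ N R S μ J W X₀ X₁ M₀ M₁ q p γ H Qo Qm) (hM : StO M₀ M₁) {j : ℕ}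
    (hj : j ≤ J) :
    ∑ k ∈ Ico k₀ N, bsum N R S (k + 1) (k + 1) (dh ((μ / 4 ^ j)⁻¹) (W k k))
      ≤ 8 * (μ / 4 ^ j)⁻¹ * EstR N J H Qo Qm := by
  have hμ := h.hμ
  have hp : 0 < (μ / 4 ^ j)⁻¹ := by positivity
  have h0 := h.outer_diag 0
  simp only [Nat.sub_zero, Nat.add_zero] at h0
  have key : ∀ k ∈ Ico k₀ N, bsum N R S (k + 1) (k + 1) (dh ((μ / 4 ^ j)⁻¹) (W k k))
      ≤ 2 * (μ / 4 ^ j)⁻¹ * ((2 : ℝ) ^ (k + 1) * 2 ^ k * ∑ m ∈ iv (N - k) S,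
        ∑ n ∈ iv (N - (k + 1)) R, SD μ J (X₀ k k n m) (X₁ k k n m)) := by
    intro k hk
    obtain ⟨k1, k2⟩ := mem_Ico.1 hk
    have e : dh ((μ / 4 ^ j)⁻¹) (W k k) = fun n m => (1 / 2) *
        (2 * dls ((μ / 4 ^ j)⁻¹) (X₀ k k n (2 * m)) (X₁ k k n (2 * m))
          + 2 * dls ((μ / 4 ^ j)⁻¹) (X₀ k k n (2 * m + 1)) (X₁ k k n (2 * m + 1))) := by
      funext n m
      unfold dh
      rw [st0R h hM k1 le_rfl k2, st0R h hM k1 le_rfl k2, st1R h hM k1 le_rfl k2,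
        st1R h hM k1 le_rfl k2]
      ring
    rw [e, bsum_mid k2 R S fun n m => 2 * dls ((μ / 4 ^ j)⁻¹) (X₀ k k n m) (X₁ k k n m)]
    refine (bsum_mono (g := fun n m => 2 * (μ / 4 ^ j)⁻¹ * SD μ J (X₀ k k n m) (X₁ k k n m))
      fun n m => ?_).trans (le_of_eq ?_)
    · have := dls_le (h.psd0 k k n m) (h.psd1 k k n m) hμ hj
      linarith
    · rw [bsum_smul]
      rfl
  refine (sum_le_sum key).trans ?_
  rw [← mul_sum]
  have hX := h.X_le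
  have := mul_le_mul_of_nonneg_left (h0.trans (mul_le_mul_of_nonneg_left hX (by norm_num)))
    (by positivity : (0 : ℝ) ≤ 2 * (μ / 4 ^ j)⁻¹)
  linarith

/-- **The middle gaps telescope**: half of the energies of the two middle halves minus the energy
of the parent, on the first diagonal. -/
theorem gap_sumR (h : StkR k₀ N R S μ J W X₀ X₁ M₀ M₁ q p γ H Qo Qm) :
    ∑ k ∈ Ico k₀ N, bsum N R S (k + 1) (k + 1) (fun n m =>
      (1 / 2) * (SG μ J (W k (k + 1) n (2 * m)) + SG μ J (W k (k + 1) n (2 * m + 1)))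
        - SG μ J (W (k + 1) (k + 1) n m)) ≤ ((J : ℝ) + 1) * H 0 + Qo 0 := by
  set E : ℕ → ℕ → ℝ := fun k a => bsum N R S k a (fun n m => SG μ J (W k a n m)) with hE
  have e : ∀ k ∈ Ico k₀ N, bsum N R S (k + 1) (k + 1) (fun n m =>
      (1 / 2) * (SG μ J (W k (k + 1) n (2 * m)) + SG μ J (W k (k + 1) n (2 * m + 1)))
        - SG μ J (W (k + 1) (k + 1) n m)) = E k (k + 1) - E (k + 1) (k + 1) := by
    intro k hk
    obtain ⟨k1, k2⟩ := mem_Ico.1 hk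
    have e1 := bsum_mid (a := k + 1) k2 R S fun n m => SG μ J (W k (k + 1) n m)
    rw [bsum_sub, e1]
  rw [sum_congr rfl e]
  have o : ∀ k ∈ Ico k₀ N, E k (k + 1) ≤ E k k + (2 : ℝ) ^ (k + 0 + 1) * 2 ^ k *
      ∑ m ∈ iv (N - k) S, ∑ n ∈ iv (N - (k + 0 + 1)) R, q k (k + 0) n m := by
    intro k hk
    obtain ⟨k1, k2⟩ := mem_Ico.1 hk
    have b := bsum_mono (N := N) (R := R) (S := S) (k := k) (a := k + 1)
      (f := fun n m => SG μ J (W k (k + 1) n m))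
      (g := fun n m => (1 / 2) * (SG μ J (W k k (2 * n) m) + SG μ J (W k k (2 * n + 1) m))
        + q k k n m) (fun n m => by
        have h1 := h.out k k n m k1 le_rfl k2
        have h2 := SD_nonneg (h.psd0 k k n m) (h.psd1 k k n m) h.hμ J
        linarith)
    rw [bsum_add, bsum_outer k2 R S fun n m => SG μ J (W k k n m)] at b
    exact b
  have s := sum_le_sum fun k hk => sub_le_sub_right (o k hk) (E (k + 1) (k + 1))
  refine s.trans ?_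
  have hq := h.hQo 0
  simp only [Nat.sub_zero] at hq
  have t : ∀ K, k₀ ≤ K → ∑ k ∈ Ico k₀ K, (E k k - E (k + 1) (k + 1)) = E k₀ k₀ - E K K := by
    intro K hK
    induction K, hK using Nat.le_induction with
    | base => simp
    | succ K hK ih =>
      rw [sum_Ico_succ_top hK, ih]
      ring
  have t1 := t N h.hkN
  have s2 : ∑ k ∈ Ico k₀ N, (E k k + (2 : ℝ) ^ (k + 0 + 1) * 2 ^ k *
      ∑ m ∈ iv (N - k) S, ∑ n ∈ iv (N - (k + 0 + 1)) R, q k (k + 0) n m - E (k + 1) (k + 1))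
      = ∑ k ∈ Ico k₀ N, (E k k - E (k + 1) (k + 1)) + ∑ k ∈ Ico k₀ N, (2 : ℝ) ^ (k + 0 + 1) *
        2 ^ k * ∑ m ∈ iv (N - k) S, ∑ n ∈ iv (N - (k + 0 + 1)) R, q k (k + 0) n m := by
    rw [← sum_add_distrib]
    exact sum_congr rfl fun k _ => by ring
  rw [s2, t1]
  have n1 : 0 ≤ E N N := bsum_nonneg fun n m => SG_nonneg (h.psd N N n m) h.hμ J
  have n2 : E k₀ k₀ ≤ ((J : ℝ) + 1) * H 0 := by
    have b := bsum_mono (N := N) (R := R) (S := S) (k := k₀) (a := k₀)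
      (f := fun n m => SG μ J (W k₀ k₀ n m))
      (g := fun n m => ((J : ℝ) + 1) * (W k₀ k₀ n m).trace)
      (fun n m => SG_le (h.psd k₀ k₀ n m) h.hμ J)
    rw [bsum_smul] at b
    exact b.trans (mul_le_mul_of_nonneg_left (h.hH 0 (by simpa using h.hkN)) (by positivity))
  linarith

end stk

/-- **The pair sum of two capped stack families, numbers.** -/
theorem pairSS_finR {k₀ N : ℕ} {R S T : ℤ} {c : ℕ → ℤ} (hc : H588.Pl c)
    {ι : ℕ → Type*} [∀ k, Fintype (ι k)] [∀ k, DecidableEq (ι k)]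
    {μ μ' : ℝ} {J J' : ℕ} {V V₀ V₁ A₀ A₁ W W₀ W₁ B₀ B₁ : ∀ k, ℕ → ℤ → ℤ → Matrix (ι k) (ι k) ℝ}
    {q p γ q' p' γ' : ℕ → ℕ → ℤ → ℤ → ℝ} {H Qo Qm H' Qo' Qm' : ℕ → ℝ}
    (hV : StkR k₀ N R S μ J V V₀ V₁ A₀ A₁ q p γ H Qo Qm) (oV : StO A₀ A₁)
    (hW : StkR k₀ N T S μ' J' W W₀ W₁ B₀ B₁ q' p' γ' H' Qo' Qm') (oW : StO B₀ B₁)
    {j j' : ℕ} (hj : j ≤ J) (hj' : j' ≤ J') {s1 s2 : ℝ} (e1 : s1 = (μ / 4 ^ j)⁻¹)
    (e2 : s2 = (μ' / 4 ^ j')⁻¹) {g : ℕ → ℤ → ℤ → ℤ → ℝ} {y1 y2 : ℕ → ℤ → ℤ → ℝ}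
    (n1 : ∀ k n m, 0 ≤ y1 k n m) (n2 : ∀ k n m, 0 ≤ y2 k n m) {Y1 Y2 : ℝ}
    (hY1 : ∑ k ∈ Ico k₀ N, bsum N R S (k + 1) (k + 1) (y1 k) ≤ Y1)
    (hY2 : ∑ k ∈ Ico k₀ N, bsum N T S (k + 1) (k + 1) (y2 k) ≤ Y2)
    (mid : ∀ k, k₀ ≤ k → k < N → ∀ n n' m,
      (phs s1 (V (k + 1) (k + 1) n m) * phs s2 (W (k + 1) (k + 1) n' m)).trace + g k n n' m
      ≤ (1 / 2) * ((phs s1 (V k (k + 1) n (2 * m)) * phs s2 (W k (k + 1) n' (2 * m))).trace
        + (phs s1 (V k (k + 1) n (2 * m + 1)) * phs s2 (W k (k + 1) n' (2 * m + 1))).trace)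
        + s2 * y1 k n m + s1 * y2 k n' m) :
    ∑ k ∈ Ico k₀ N, GW N R S T (k + 1) (c (k + 1)) (g k)
      ≤ 400 * √(s1 * s2 * (EstR N J H Qo Qm * EstR N J' H' Qo' Qm'))
        + 4 * s2 * EstR N J H Qo Qm + 4 * s1 * EstR N J' H' Qo' Qm' + s2 * Y1 + s1 * Y2 := by
  have hμ := hV.hμ
  have hμ' := hW.hμ
  have p1 : 0 < s1 := by rw [e1]; positivity
  have p2 : 0 < s2 := by rw [e2]; positivity
  have h := pairSS_total hV.hkN hc p1 p2 hV.psd hW.psd (outMR hV oV) (outMR hW oW) (R := R) (S := S)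
    (T := T) (g := fun k n n' m => (g k n n' m - s2 * y1 k n m) - s1 * y2 k n' m)
    (fun k k1 k2 n n' m => by
      have := mid k k1 k2 n n' m
      linarith)
  have e : ∑ k ∈ Ico k₀ N, GW N R S T (k + 1) (c (k + 1))
        (fun n n' m => (g k n n' m - s2 * y1 k n m) - s1 * y2 k n' m)
      = ∑ k ∈ Ico k₀ N, GW N R S T (k + 1) (c (k + 1)) (g k)
        - s2 * ∑ k ∈ Ico k₀ N, GW N R S T (k + 1) (c (k + 1)) (fun n _ m => y1 k n m)
        - s1 * ∑ k ∈ Ico k₀ N, GW N R S T (k + 1) (c (k + 1)) (fun _ n' m => y2 k n' m) := by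
    rw [Finset.mul_sum, Finset.mul_sum, ← Finset.sum_sub_distrib, ← Finset.sum_sub_distrib]
    refine Finset.sum_congr rfl fun k _ => ?_
    rw [GW_sub N R S T (k + 1) (c (k + 1)) (fun n n' m => g k n n' m - s2 * y1 k n m)
      (fun _ n' m => y2 k n' m) s1]
    rw [GW_sub N R S T (k + 1) (c (k + 1)) (g k) (fun n _ m => y1 k n m) s2]
  rw [e] at h
  -- the four sums
  have a1 : ∑ k ∈ Ico k₀ N, GW N R S T (k + 1) (c (k + 1)) (fun n _ m => y1 k n m) ≤ Y1 :=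
    (sum_le_sum fun k _ => GW_left N R S T (k + 1) (c (k + 1)) (n1 k)).trans hY1
  have a2 : ∑ k ∈ Ico k₀ N, GW N R S T (k + 1) (c (k + 1)) (fun _ n' m => y2 k n' m) ≤ Y2 :=
    (sum_le_sum fun k _ => GW_right N R S T (k + 1) (c (k + 1)) (n2 k)).trans hY2
  have d1 : ∑ k ∈ Ico k₀ N, GW N R S T (k + 1) (c (k + 1)) (fun n _ m => dh s1 (V k k) n m)
      ≤ 8 * s1 * EstR N J H Qo Qm := by
    refine (sum_le_sum fun k _ => GW_left N R S T (k + 1) (c (k + 1)) fun n m => ?_).trans ?_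
    · exact add_nonneg (dls_nonneg p1 (hV.psd _ _ _ _) (hV.psd _ _ _ _))
        (dls_nonneg p1 (hV.psd _ _ _ _) (hV.psd _ _ _ _))
    · have := dh_sumR hV oV hj
      rw [← e1] at this
      exact this
  have d2 : ∑ k ∈ Ico k₀ N, GW N R S T (k + 1) (c (k + 1)) (fun _ n' m => dh s2 (W k k) n' m)
      ≤ 8 * s2 * EstR N J' H' Qo' Qm' := by
    refine (sum_le_sum fun k _ => GW_right N R S T (k + 1) (c (k + 1)) fun n m => ?_).trans ?_
    · exact add_nonneg (dls_nonneg p2 (hW.psd _ _ _ _) (hW.psd _ _ _ _))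
        (dls_nonneg p2 (hW.psd _ _ _ _) (hW.psd _ _ _ _))
    · have := dh_sumR hW oW hj'
      rw [← e2] at this
      exact this
  -- the plane energies
  have t1 := hV.TV_stack hj
  have t2 := hW.TV_stack hj'
  rw [← e1] at t1
  rw [← e2] at t2
  have z2 : 0 ≤ TV k₀ N T S (fun k a n m => phs s2 (W k a n m)) :=
    TV_nonneg fun k a n m => phs_symm (hW.psd k a n m) p2
  have z1 : 0 ≤ TV k₀ N R S (fun k a n m => phs s1 (V k a n m)) :=
    TV_nonneg fun k a n m => phs_symm (hV.psd k a n m) p1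
  have t3 : √(TV k₀ N R S (fun k a n m => phs s1 (V k a n m))
      * TV k₀ N T S (fun k a n m => phs s2 (W k a n m)))
      ≤ 400 * √(s1 * s2 * (EstR N J H Qo Qm * EstR N J' H' Qo' Qm')) := by
    have := mul_le_mul t1 t2 z2 (z1.trans t1)
    refine (Real.sqrt_le_sqrt this).trans (le_of_eq ?_)
    have e3 : 400 * s1 * EstR N J H Qo Qm * (400 * s2 * EstR N J' H' Qo' Qm')
        = 400 ^ 2 * (s1 * s2 * (EstR N J H Qo Qm * EstR N J' H' Qo' Qm')) := by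
      ring
    rw [e3, Real.sqrt_mul (by norm_num), Real.sqrt_sq (by norm_num)]
  have b1 : s2 * s1⁻¹ / 2 * (8 * s1 * EstR N J H Qo Qm) = 4 * s2 * EstR N J H Qo Qm := by
    field_simp
    ring
  have b2 : s1 * s2⁻¹ / 2 * (8 * s2 * EstR N J' H' Qo' Qm') = 4 * s1 * EstR N J' H' Qo' Qm' := by
    field_simp
    ring
  have c1 := mul_le_mul_of_nonneg_left d1 (by positivity : 0 ≤ s2 * s1⁻¹ / 2)
  have c2 := mul_le_mul_of_nonneg_left d2 (by positivity : 0 ≤ s1 * s2⁻¹ / 2)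
  have c3 := mul_le_mul_of_nonneg_left a1 p2.le
  have c4 := mul_le_mul_of_nonneg_left a2 p1.le
  linarith

section stkI

variable {k₀ N : ℕ} {R S : ℤ} {μ : ℝ} {J : ℕ}
  {W X₀ X₁ M₀ M₁ : ∀ k, ℕ → ℤ → ℤ → Matrix (Ix k) (Ix k) ℝ}
  {q p γ : ℕ → ℕ → ℤ → ℤ → ℝ} {H Qo Qm : ℕ → ℝ}

/-- **The own middle defects over all scales.** -/
theorem gcs_sumR (h : StkR k₀ N R S μ J W X₀ X₁ M₀ M₁ q p γ H Qo Qm) (hγ : GamC k₀ N μ J W γ)
    {j : ℕ} (hj : j ≤ J) :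
    ∑ k ∈ Ico k₀ N, bsum N R S (k + 1) (k + 1) (gcs W ((μ / 4 ^ j)⁻¹) k (k + 1))
      ≤ 4 * (μ / 4 ^ j)⁻¹ * EstR N J H Qo Qm := by
  have hμ := h.hμ
  have hp : 0 < (μ / 4 ^ j)⁻¹ := by positivity
  have h0 := h.mid_diag 0
  simp only [Nat.sub_zero, Nat.add_zero] at h0
  have key : ∀ k ∈ Ico k₀ N, bsum N R S (k + 1) (k + 1) (gcs W ((μ / 4 ^ j)⁻¹) k (k + 1))
      ≤ 4 * (μ / 4 ^ j)⁻¹ * ((2 : ℝ) ^ (k + 1) * 2 ^ (k + 1) * ∑ m ∈ iv (N - (k + 1)) S,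
        ∑ n ∈ iv (N - (k + 1)) R, γ k (k + 1) n m) := by
    intro k hk
    obtain ⟨k1, k2⟩ := mem_Ico.1 hk
    refine (bsum_mono (g := fun n m => 4 * (μ / 4 ^ j)⁻¹ * γ k (k + 1) n m)
      fun n m => ?_).trans (le_of_eq ?_)
    · have g1 := gcs_le (X := sIx W k (k + 1) n m) (r := rad (Ix k)) (h.psd (k + 1) (k + 1) n m)
        (rad_symm' k) hμ hj
      have g2 := mul_le_mul_of_nonneg_left (hγ k k1 k2 n m) hp.le
      unfold gcs
      linarith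
    · rw [bsum_smul]
      rfl
  refine (sum_le_sum key).trans ?_
  rw [← mul_sum]
  have hX := h.X_le
  have := mul_le_mul_of_nonneg_left (h0.trans hX) (by positivity : (0 : ℝ) ≤ 4 * (μ / 4 ^ j)⁻¹)
  linarith

/-- **All sums of the raw pair in one number**: `G` is a quantity with the four terms of
`H389.realAC`, `Tp` a bound for the plane energy of the raw family. -/
theorem rawAC_numR {T : ℤ} {c : ℕ → ℤ}
    (hW : StkR k₀ N T S μ J W X₀ X₁ M₀ M₁ q p γ H Qo Qm) (oW : StO M₀ M₁)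
    (hγ : GamC k₀ N μ J W γ) {j : ℕ} (hj : j ≤ J) {s : ℝ} (es : s = (μ / 4 ^ j)⁻¹)
    {τ Tp Cq G TP : ℝ} (hτ : 0 ≤ τ) (hTP0 : 0 ≤ TP) (hTP : TP ≤ Tp)
    (hG : G ≤ √(TP * TV k₀ N T S (fun k a n m => phs s (W k a n m)))
      + τ * s⁻¹ / 2 * ∑ k ∈ Ico k₀ N, GW N R S T (k + 1) (c (k + 1)) (fun _ n' m =>
        dh s (W k k) n' m)
      + τ * s⁻¹ / 2 * ∑ k ∈ Ico k₀ N, GW N R S T (k + 1) (c (k + 1)) (fun _ n' m =>
        gcs W s k (k + 1) n' m)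
      + 2 * τ * Cq) :
    G ≤ √(400 * (s * (Tp * EstR N J H Qo Qm))) + 6 * τ * EstR N J H Qo Qm + 2 * τ * Cq := by
  have hμ := hW.hμ
  have ps : 0 < s := by rw [es]; positivity
  have d1 : ∑ k ∈ Ico k₀ N, GW N R S T (k + 1) (c (k + 1)) (fun _ n' m => dh s (W k k) n' m)
      ≤ 8 * s * EstR N J H Qo Qm := by
    refine (sum_le_sum fun k _ => GW_right N R S T (k + 1) (c (k + 1)) fun n m => ?_).trans ?_
    · exact add_nonneg (dls_nonneg ps (hW.psd _ _ _ _) (hW.psd _ _ _ _))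
        (dls_nonneg ps (hW.psd _ _ _ _) (hW.psd _ _ _ _))
    · have := dh_sumR hW oW hj
      rw [← es] at this
      exact this
  have d2 : ∑ k ∈ Ico k₀ N, GW N R S T (k + 1) (c (k + 1)) (fun _ n' m =>
      gcs W s k (k + 1) n' m) ≤ 4 * s * EstR N J H Qo Qm := by
    refine (sum_le_sum fun k _ => GW_right N R S T (k + 1) (c (k + 1)) fun n m => ?_).trans ?_
    · have hp := phs_psd ps (hW.psd (k + 1) (k + 1) n m)
      exact P075.trace_mul_nonneg (V := rad (Ix k) * phs s (sIx W k (k + 1) n m) * rad (Ix k))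
        hp (P075.psd_conj_symm hp (rad_symm' k))
    · have := gcs_sumR hW hγ hj
      rw [← es] at this
      exact this
  have t2 := hW.TV_stack hj
  rw [← es] at t2
  have z2 : 0 ≤ TV k₀ N T S (fun k a n m => phs s (W k a n m)) :=
    TV_nonneg fun k a n m => phs_symm (hW.psd k a n m) ps
  have hE : 0 ≤ EstR N J H Qo Qm := hW.Est_nonneg
  have t3 : √(TP * TV k₀ N T S (fun k a n m => phs s (W k a n m)))
      ≤ √(400 * (s * (Tp * EstR N J H Qo Qm))) := by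
    have h1 := mul_le_mul hTP t2 z2 (hTP0.trans hTP)
    refine Real.sqrt_le_sqrt (h1.trans (le_of_eq ?_))
    ring
  have b1 : τ * s⁻¹ / 2 * (8 * s * EstR N J H Qo Qm) = 4 * τ * EstR N J H Qo Qm := by
    field_simp
    ring
  have b2 : τ * s⁻¹ / 2 * (4 * s * EstR N J H Qo Qm) = 2 * τ * EstR N J H Qo Qm := by
    field_simp
    ring
  have c1 := mul_le_mul_of_nonneg_left d1 (by positivity : 0 ≤ τ * s⁻¹ / 2)
  have c2 := mul_le_mul_of_nonneg_left d2 (by positivity : 0 ≤ τ * s⁻¹ / 2)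
  linarith

end stkI

end

end Vale.Agent.P141.H336
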